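import Vale.Agent.P309B7.Main

/-!
Memory bounded learners for noiseless Gaussian linear regression, run on a probability space.
-/

namespace Vale.Agent.Results.P309.AExperiment

open MeasureTheory Vale.Agent.P309B7

universe u

theorem result :
    (∀ d : ℕ, 1 ≤ d → ∃ (Ω : Type) (_ : MeasurableSpace Ω) (P : Measure Ω) (S : Ω → Sph d)
      (X : ℕ → Ω → Eu d) (U : ℕ → Ω → unitInterval),
      IsExperiment P S X U ∧ ∀ t, P.map (U t) = volume) ∧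
    ∃ C : ℝ, 0 < C ∧ ∀ C₀ : ℝ, 0 < C₀ →
    ∃ c : ℝ, 0 < c ∧ ∃ d₀ : ℕ, ∃ ε₀ : ℝ, 0 < ε₀ ∧ ε₀ < 1 ∧
      ∀ d : ℕ, d₀ ≤ d → ∀ ε : ℝ, 0 < ε → ε ≤ ε₀ → ∀ M : ℕ, (M : ℝ) ≤ C₀ * (d : ℝ) ^ 2 →
        (∀ (T N : ℕ) (R Ω : Type u) [MeasurableSpace R] [MeasurableSpace Ω] (L : Rule d N R)
          (P : Measure Ω) (S : Ω → Sph d) (X : ℕ → Ω → Eu d) (U : ℕ → Ω → R),
          N ≤ 2 ^ M → IsExperiment P S X U →
          (2 / 3 ≤ L.success T ε P S X U → c * d * Real.log (1 / ε) ≤ T) ∧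
          ((T : ℝ) < c * d * Real.log (1 / ε) →
            L.success T ε P S X U ≤ ENNReal.ofReal (Real.exp (-((d : ℝ) / 16))))) ∧
        ((M : ℝ) ≤ (d - 1) * Real.logb 2 (1 / ε) - 4 * d → horizon d M ε = ⊤) ∧
        ((d - 1) * Real.logb 2 (1 / ε) + (2 * C₀ + 16) * d ≤ M →
          Real.log d * Real.log (Real.log d) ≤ Real.log (1 / ε) →
          ∃ T : ℕ, horizon d M ε = (T : ℕ∞) ∧
            c * d * Real.log (1 / ε) ≤ T ∧ (T : ℝ) ≤ C * d * Real.log (1 / ε)) ∧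
        (∀ A : ℝ, 1 ≤ A → d * Real.logb 2 (1 / ε) + (15 + A) * d ≤ M →
          ∃ T : ℕ, horizon d M ε = (T : ℕ∞) ∧ c * d * Real.log (1 / ε) ≤ T ∧
            (T : ℝ) ≤ C * d * (Real.log (1 / ε) +
              Real.log d * Real.log (1 + Real.log (1 / ε) / A))) ∧
        (d * Real.logb 2 (d / ε) + 11 * d ≤ M → ∃ T : ℕ, horizon d M ε = (T : ℕ∞) ∧
          c * d * Real.log (1 / ε) ≤ T ∧ (T : ℝ) ≤ 20 * d * Real.log (1 / ε)) := by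
  refine ⟨fun d hd => exists_experiment hd, ?_⟩
  obtain ⟨C, hC, h⟩ := _root_.P309.LMS.main
  refine ⟨C, hC, fun C₀ hC₀ => ?_⟩
  obtain ⟨c, hc, d₀, ε₀, h0, h1, h⟩ := h C₀ hC₀
  refine ⟨c, hc, max d₀ 1, ε₀, h0, h1, fun d hd ε hε hε' M hM => ?_⟩
  obtain ⟨k1, k2, k3, k4, k5, k6⟩ := h d (le_of_max_le_left hd) ε hε hε' M hM
  rw [horizon_eq (le_of_max_le_right hd)]
  refine ⟨fun T N R Ω _ _ L P S X U hN hE => ?_, fun hm => (k3 hm).1, k4, fun A hA hm => ?_, k6⟩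
  · obtain ⟨K, -, hK⟩ := hE.exists_learner L hN
    rw [hK]
    exact ⟨k1 T K, k2 T K⟩
  · obtain ⟨T, T', e1, e2, e3, e4, -⟩ := k5 A hA hm
    exact ⟨T, e1, e2, le_trans (by exact_mod_cast e3) e4⟩

end Vale.Agent.Results.P309.AExperiment
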